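import Vale.Agent.P248.Equi.Main
import Vale.Agent.P248.Equi.Symm

/-!
# P248: the symmetric Mahler inequality for equipartitioned bodies in every dimension

If in some basis every coordinate section has all orthant pieces of equal volume, then
`|K| |K°| ≥ 4^n / n!`. This holds for every body with reflections and quarter turns of one basis
covering all coordinates.
-/

namespace Vale.Agent.Results.P248.EquipartitionedBodies

open MeasureTheory Set Matrix
open Vale.Agent.P248
open scoped ENNReal RealInnerProductSpace Nat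

noncomputable section

variable {n : ℕ}

/-- An origin-symmetric convex body. -/
structure SymmBody (K : Set (EuclideanSpace ℝ (Fin n))) : Prop where
  compact : IsCompact K
  convex : Convex ℝ K
  interior_nonempty : (interior K).Nonempty
  neg_mem : ∀ x ∈ K, -x ∈ K

/-- The polar body. -/
def polar (K : Set (EuclideanSpace ℝ (Fin n))) : Set (EuclideanSpace ℝ (Fin n)) :=
  {y | ∀ x ∈ K, ⟪y, x⟫ ≤ 1}

/-- The coefficient vectors, with signs `ε`, of the points of `K` in the span of the `b (ι i)`. -/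
def orthant (b : Module.Basis (Fin n) ℝ (EuclideanSpace ℝ (Fin n)))
    (K : Set (EuclideanSpace ℝ (Fin n))) {k : ℕ} (ι : Fin k ↪ Fin n) (ε : Fin k → Bool) :
    Set (Fin k → ℝ) :=
  {y | ∑ i, y i • b (ι i) ∈ K ∧ ∀ i, 0 ≤ (bif ε i then y i else -y i)}

/-- For each choice of `k` distinct basis vectors, the `2^k` orthant pieces of the section of `K`
by their span, in the coordinates of the basis, have the same volume. -/
def Equipartitioned (b : Module.Basis (Fin n) ℝ (EuclideanSpace ℝ (Fin n)))
    (K : Set (EuclideanSpace ℝ (Fin n))) : Prop :=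
  ∀ (k : ℕ) (ι : Fin k ↪ Fin n) (ε ε' : Fin k → Bool),
    volume (orthant b K ι ε) = volume (orthant b K ι ε')

/-- Invariance under the reflection `c_i ↦ -c_i` of the coordinates of `b`. -/
def ReflAt (b : Module.Basis (Fin n) ℝ (EuclideanSpace ℝ (Fin n))) (i : Fin n)
    (K : Set (EuclideanSpace ℝ (Fin n))) : Prop :=
  ∀ x ∈ K, x - (2 * b.repr x i) • b i ∈ K

/-- Invariance under the quarter turn `(c_i, c_j) ↦ (-c_j, c_i)` of the coordinates of `b`. -/
def TurnAt (b : Module.Basis (Fin n) ℝ (EuclideanSpace ℝ (Fin n))) (i j : Fin n)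
    (K : Set (EuclideanSpace ℝ (Fin n))) : Prop :=
  ∀ x ∈ K, x - (b.repr x i + b.repr x j) • b i + (b.repr x i - b.repr x j) • b j ∈ K

/-- The inequality of the symmetric Mahler conjecture. -/
def MahlerBound (K : Set (EuclideanSpace ℝ (Fin n))) : Prop :=
  ENNReal.ofReal (4 ^ n / n !) ≤ volume K * volume (polar K)

variable {K : Set (EuclideanSpace ℝ (Fin n))}

/-- The coordinates of a basis. -/
def coord (b : Module.Basis (Fin n) ℝ (EuclideanSpace ℝ (Fin n))) :
    EuclideanSpace ℝ (Fin n) ≃ₗ[ℝ] (Fin n → ℝ) := b.equivFun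

theorem sum_eq (b : Module.Basis (Fin n) ℝ (EuclideanSpace ℝ (Fin n))) {k : ℕ}
    (ι : Fin k ↪ Fin n) (y : Fin k → ℝ) :
    coord b (∑ i, y i • b (ι i)) = Equi.ext ι y := by
  funext j
  rw [map_sum, Finset.sum_apply]
  by_cases hj : ∃ i, ι i = j
  · obtain ⟨i, rfl⟩ := hj
    rw [Equi.ext_apply, Finset.sum_eq_single i]
    · simp [coord]
    · intro m _ hm
      simp [coord, ι.injective.ne hm]
    · simp
  · rw [Equi.ext_apply' ι y hj]
    refine Finset.sum_eq_zero fun m _ => ?_
    simp [coord, show ι m ≠ j from fun h => hj ⟨m, h⟩]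

theorem body_coord (h : SymmBody K) (b : Module.Basis (Fin n) ℝ (EuclideanSpace ℝ (Fin n))) :
    Equi.Body (coord b '' K) := by
  have hc : Continuous (coord b) := (coord b).toLinearMap.continuous_of_finiteDimensional
  refine
    { compact := h.compact.image hc
      convex := h.convex.linear_image (coord b).toLinearMap
      neg_mem := by
        rintro _ ⟨a, ha, rfl⟩
        exact ⟨-a, h.neg_mem a ha, map_neg (coord b) a⟩
      zero_int := ?_ }
  obtain ⟨x, hx⟩ := h.interior_nonempty
  have h0 : (0 : EuclideanSpace ℝ (Fin n)) ∈ interior K := by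
    have hneg : -x ∈ K := h.neg_mem x (interior_subset hx)
    have := h.convex.combo_interior_self_mem_interior hx hneg (show (0 : ℝ) < 1 / 2 by norm_num)
      (show (0 : ℝ) ≤ 1 / 2 by norm_num) (by norm_num)
    simpa using this
  exact ((coord b).toLinearMap.isOpenMap_of_finiteDimensional
    (coord b).surjective).image_interior_subset K ⟨0, h0, map_zero _⟩

/-- The volume product does not depend on the coordinates. -/
theorem product_eq (hK : IsCompact K) (b : Module.Basis (Fin n) ℝ (EuclideanSpace ℝ (Fin n))) :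
    volume K * volume (polar K)
      = volume (coord b '' K) * volume (Equi.dual (coord b '' K)) := by
  set e := WithLp.linearEquiv 2 ℝ (Fin n → ℝ)
  set f : (Fin n → ℝ) →ₗ[ℝ] (Fin n → ℝ) := e.toLinearMap ∘ₗ (coord b).symm.toLinearMap
  set M := LinearMap.toMatrix' f
  have hM : ∀ y, M *ᵥ y = e ((coord b).symm y) := fun y => LinearMap.toMatrix'_mulVec f y
  have hdet : M.det ≠ 0 := by
    rw [LinearMap.det_toMatrix']
    exact (LinearEquiv.isUnit_det' ((coord b).symm.trans e)).ne_zero
  have mp := PiLp.volume_preserving_toLp (Fin n)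
  have hvol : ∀ A : Set (EuclideanSpace ℝ (Fin n)), IsClosed A → volume (e '' A) = volume A :=
    fun A hA => by
      rw [show e '' A = WithLp.toLp 2 ⁻¹' A from Set.ext fun y =>
        ⟨fun ⟨a, ha, he⟩ => he ▸ ha, fun hy => ⟨_, hy, rfl⟩⟩,
        mp.measure_preimage hA.measurableSet.nullMeasurableSet]
  have hmap : ∀ (A : Matrix (Fin n) (Fin n) ℝ) (T : Set (Fin n → ℝ)),
      volume ((fun y => A *ᵥ y) '' T) = ENNReal.ofReal |A.det| * volume T := fun A T => by
    have h := Measure.addHaar_image_linearMap (volume : Measure (Fin n → ℝ)) (Matrix.toLin' A) T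
    rw [LinearMap.det_toLin'] at h
    exact h
  have hP : IsClosed (polar K) := by
    have h : polar K = ⋂ x ∈ K, {y : EuclideanSpace ℝ (Fin n) | ⟪y, x⟫ ≤ 1} := by
      ext; simp [polar]
    rw [h]
    exact isClosed_biInter fun x _ =>
      isClosed_le (continuous_id.inner continuous_const) continuous_const
  have e1 : e '' K = (fun y => M *ᵥ y) '' (coord b '' K) := by
    rw [image_image]
    refine image_congr fun x _ => ?_
    rw [hM, LinearEquiv.symm_apply_apply]
  have e2 : Equi.dual (coord b '' K) = (fun y => Mᵀ *ᵥ y) '' (e '' polar K) := by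
    have hin : ∀ y x : EuclideanSpace ℝ (Fin n), ⟪y, x⟫ = e y ⬝ᵥ e x := fun y x => by
      rw [PiLp.inner_apply]
      exact Finset.sum_congr rfl fun i _ => by simp [e, mul_comm]
    have hpair : ∀ (u : Fin n → ℝ) (x : EuclideanSpace ℝ (Fin n)),
        (Mᵀ *ᵥ u) ⬝ᵥ coord b x = u ⬝ᵥ e x := fun u x => by
      rw [Matrix.mulVec_transpose, ← Matrix.dotProduct_mulVec, hM, LinearEquiv.symm_apply_apply]
    refine Set.ext fun w => ⟨fun hw => ?_, ?_⟩
    · have hu : IsUnit Mᵀ.det := by rw [Matrix.det_transpose]; exact isUnit_iff_ne_zero.2 hdet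
      have hwu : Mᵀ *ᵥ (Mᵀ⁻¹ *ᵥ w) = w := by
        rw [Matrix.mulVec_mulVec, Matrix.mul_nonsing_inv _ hu, Matrix.one_mulVec]
      refine ⟨Mᵀ⁻¹ *ᵥ w, ⟨e.symm (Mᵀ⁻¹ *ᵥ w), fun x hx => ?_, e.apply_symm_apply _⟩, hwu⟩
      rw [hin, e.apply_symm_apply, ← hpair, hwu]
      exact hw _ ⟨x, hx, rfl⟩
    · rintro ⟨_, ⟨y, hy, rfl⟩, rfl⟩ _ ⟨x, hx, rfl⟩
      rw [hpair, ← hin]
      exact hy x hx
  rw [← hvol K hK.isClosed, e1, hmap, e2, hmap, hvol _ hP, Matrix.det_transpose]
  ring

theorem part_coord (b : Module.Basis (Fin n) ℝ (EuclideanSpace ℝ (Fin n)))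
    (h : Equipartitioned b K) : Equi.Part (coord b '' K) := by
  intro k ι ε ε'
  have e : ∀ η : Fin k → Bool, Equi.piece (coord b '' K) ι η
      = {y : Fin k → ℝ | ∑ i, y i • b (ι i) ∈ K ∧ ∀ i, 0 ≤ (bif η i then y i else -y i)} := by
    intro η
    ext y
    refine and_congr ?_ (forall_congr' fun i => ?_)
    · rw [← sum_eq b ι y, (coord b).injective.mem_set_image]
    · cases η i <;> simp [Equi.sgn]
  rw [e, e]
  exact h k ι ε ε'

theorem mahler_of_part (hK : SymmBody K) (b : Module.Basis (Fin n) ℝ (EuclideanSpace ℝ (Fin n)))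
    (hP : Equi.Part (coord b '' K)) :
    ENNReal.ofReal (4 ^ n / n !) ≤ volume K * volume (polar K) := by
  rw [product_eq hK.compact b]
  exact Equi.mahler (body_coord hK b) hP

theorem of_symm (hK : SymmBody K) (b : Module.Basis (Fin n) ℝ (EuclideanSpace ℝ (Fin n)))
    {q : ℕ} (S : Finset (Fin n)) (e : Fin q × Fin 2 ↪ Fin n)
    (hcover : ∀ j, j ∈ S ∨ ∃ p, e p = j)
    (hS : ∀ i ∈ S, ReflAt b i K) (hT : ∀ p, TurnAt b (e (p, 0)) (e (p, 1)) K) :
    ENNReal.ofReal (4 ^ n / n !) ≤ volume K * volume (polar K) := by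
  refine mahler_of_part hK b (Equi.part_of_symm (body_coord hK b).compact.isClosed S e hcover
    ?_ ?_)
  · rintro i hi _ ⟨x, hx, rfl⟩
    refine ⟨_, hS i hi x hx, ?_⟩
    funext j
    rcases eq_or_ne j i with rfl | h
    · simp [coord, Equi.refl1]; ring
    · simp [coord, Equi.refl1, h]
  · rintro p _ ⟨x, hx, rfl⟩
    have hne : e (p, 0) ≠ e (p, 1) := fun h => by simpa using e.injective h
    refine ⟨_, hT p x hx, ?_⟩
    funext j
    rcases eq_or_ne j (e (p, 0)) with rfl | h0
    · simp [coord, Equi.turn2, hne]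
    rcases eq_or_ne j (e (p, 1)) with rfl | h1
    · simp [coord, Equi.turn2, hne.symm]
    · simp [coord, Equi.turn2, h0, h1]

/-- The symmetric Mahler inequality for equipartitioned bodies, in particular for bodies invariant
under reflections and quarter turns of one basis which cover all coordinates. -/
theorem result :
    (∀ (n : ℕ) (K : Set (EuclideanSpace ℝ (Fin n)))
      (b : Module.Basis (Fin n) ℝ (EuclideanSpace ℝ (Fin n))),
      SymmBody K → Equipartitioned b K → MahlerBound K) ∧
    (∀ (n q : ℕ) (K : Set (EuclideanSpace ℝ (Fin n)))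
      (b : Module.Basis (Fin n) ℝ (EuclideanSpace ℝ (Fin n))) (S : Finset (Fin n))
      (e : Fin q × Fin 2 ↪ Fin n), SymmBody K → (∀ j, j ∈ S ∨ ∃ p, e p = j) →
      (∀ i ∈ S, ReflAt b i K) → (∀ p, TurnAt b (e (p, 0)) (e (p, 1)) K) → MahlerBound K) :=
  ⟨fun _ _ b hK hP => mahler_of_part hK b (part_coord b hP),
    fun _ _ _ b S e hK hc hS hT => of_symm hK b S e hc hS hT⟩

end

end Vale.Agent.Results.P248.EquipartitionedBodies
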