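import Mathlib

/-!
# P248: bodies with large volume for their diameter

If a convex body has diameter at most `2 R`, every polar body with respect to an interior point has
at least the volume of the ball of radius `1 / R`. Hence both Mahler conjectures hold, strictly, for
bodies of large volume for their diameter in high dimensions.
-/

namespace Vale.Agent.Results.P248.WideBodies

open Set Metric MeasureTheory Real
open scoped RealInnerProductSpace ENNReal Nat Pointwise

noncomputable section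

variable {n : ℕ}

/-- The support function of `K` seen from `z`. -/
def supp (K : Set (EuclideanSpace ℝ (Fin n))) (z y : EuclideanSpace ℝ (Fin n)) : ℝ :=
  sSup ((fun x => ⟪y, x - z⟫) '' K)

/-- The moment of the tent on the half line. -/
def tentMass (n : ℕ) : ℝ≥0∞ := ∫⁻ s in Ioi (0 : ℝ), ENNReal.ofReal (1 - s) ^ n

theorem tentMass_ne (hn : n ≠ 0) : tentMass n ≠ 0 ∧ tentMass n ≠ ∞ := by
  constructor
  · have h : ENNReal.ofReal (1 / 2) ^ n * volume (Ioo (0 : ℝ) (1 / 2)) ≤ tentMass n := by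
      rw [← setLIntegral_const]
      refine (setLIntegral_mono' measurableSet_Ioo fun s hs => ?_).trans
        (lintegral_mono_set fun s hs => hs.1)
      exact pow_le_pow_left' (ENNReal.ofReal_le_ofReal (by linarith [hs.2])) n
    intro h0
    rw [h0, Real.volume_Ioo] at h
    simp at h
  · have h : tentMass n ≤ ∫⁻ s in Ioi (0 : ℝ), (Ioo (0 : ℝ) 1).indicator 1 s := by
      refine setLIntegral_mono' measurableSet_Ioi fun s hs => ?_
      by_cases h1 : s < 1
      · rw [indicator_of_mem (show s ∈ Ioo (0 : ℝ) 1 from ⟨hs, h1⟩)]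
        exact (pow_le_pow_left' (ENNReal.ofReal_le_ofReal (by linarith [mem_Ioi.1 hs] :
          1 - s ≤ 1)) n).trans (by simp)
      · rw [ENNReal.ofReal_of_nonpos (by linarith), zero_pow hn]
        exact zero_le
    refine ne_top_of_le_ne_top ?_ (h.trans (setLIntegral_le_lintegral _ _))
    rw [lintegral_indicator_one measurableSet_Ioo, Real.volume_Ioo]
    simp

theorem lintegral_tent (hn : n ≠ 0) {g : EuclideanSpace ℝ (Fin n) → ℝ} (hc : Continuous g)
    (h0 : ∀ y, 0 ≤ g y) (hh : ∀ t : ℝ, 0 < t → ∀ y, g (t • y) = t * g y) :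
    ∫⁻ y, ENNReal.ofReal (max (1 - g y) 0) = tentMass n * volume {y | g y < 1} := by
  have hlc : Continuous fun y => max (1 - g y) 0 := (continuous_const.sub hc).max continuous_const
  rw [lintegral_eq_lintegral_meas_lt volume (f := fun y => max (1 - g y) 0)
    (Filter.Eventually.of_forall fun y => le_max_right _ _) hlc.aemeasurable, tentMass,
    ← lintegral_mul_const _ (show Measurable fun s : ℝ => ENNReal.ofReal (1 - s) ^ n by fun_prop)]
  refine setLIntegral_congr_fun measurableSet_Ioi fun s hs => ?_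
  have e : {y | s < max (1 - g y) 0} = {y | g y < 1 - s} := by
    ext y
    simp [not_lt.2 (le_of_lt (mem_Ioi.1 hs)), lt_sub_comm]
  rw [e]
  rcases le_or_gt (1 - s) 0 with h | h
  · rw [ENNReal.ofReal_of_nonpos h, zero_pow hn, zero_mul,
      eq_empty_of_forall_notMem (s := {y | g y < 1 - s}) fun y hy => absurd (h0 y) (by
        simp only [mem_setOf_eq] at hy; linarith), measure_empty]
  · have hs' : {y | g y < 1 - s} = (1 - s) • {y | g y < 1} := by
      ext y
      rw [mem_smul_set_iff_inv_smul_mem₀ h.ne']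
      simp [hh _ (inv_pos.2 h), inv_mul_lt_iff₀ h]
    rw [hs', Measure.addHaar_smul_of_nonneg _ h.le, finrank_euclideanSpace_fin,
      ENNReal.ofReal_pow h.le]

theorem polar_volume (hn : n ≠ 0) {K : Set (EuclideanSpace ℝ (Fin n))} (hK : IsCompact K)
    {z : EuclideanSpace ℝ (Fin n)} (hz : z ∈ interior K) {R : ℝ} (hR : 0 < R)
    (hD : ∀ x ∈ K, ∀ y ∈ K, ‖x - y‖ ≤ 2 * R) :
    volume.real (closedBall (0 : EuclideanSpace ℝ (Fin n)) 1) / R ^ n
      ≤ volume.real {y | ∀ x ∈ K, ⟪y, x - z⟫ ≤ 1} := by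
  set g := supp K z with hg
  have hzK := interior_subset hz
  have hne : ∀ y, ((fun x => ⟪y, x - z⟫) '' K).Nonempty := fun y => ⟨_, z, hzK, rfl⟩
  have hbd : ∀ y, ∀ x ∈ K, ⟪y, x - z⟫ ≤ g y := fun y x hx =>
    le_csSup (hK.image (by fun_prop)).bddAbove ⟨x, hx, rfl⟩
  have hsup : ∀ y c, (∀ x ∈ K, ⟪y, x - z⟫ ≤ c) → g y ≤ c := fun y c h =>
    csSup_le (hne y) (by rintro _ ⟨x, hx, rfl⟩; exact h x hx)
  have h0 : ∀ y, 0 ≤ g y := fun y => by simpa using hbd y z hzK
  have hh : ∀ t : ℝ, 0 < t → ∀ y, g (t • y) = t * g y := fun t ht y => by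
    refine le_antisymm (hsup _ _ fun x hx => ?_) ?_
    · rw [real_inner_smul_left]; exact mul_le_mul_of_nonneg_left (hbd y x hx) ht.le
    · rw [mul_comm, ← le_div_iff₀ ht]
      refine hsup _ _ fun x hx => ?_
      rw [le_div_iff₀ ht, mul_comm, ← real_inner_smul_left]
      exact hbd _ x hx
  have hlip : ∀ y y', g y ≤ g y' + 2 * R * ‖y - y'‖ := fun y y' => hsup _ _ fun x hx => by
    have e : ⟪y, x - z⟫ = ⟪y', x - z⟫ + ⟪y - y', x - z⟫ := by rw [inner_sub_left]; ring
    rw [e]
    refine add_le_add (hbd y' x hx) ((real_inner_le_norm _ _).trans ?_)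
    nlinarith [hD x hx z hzK, norm_nonneg (y - y')]
  have hc : Continuous g := (LipschitzWith.of_le_add_mul' (2 * R) fun y y' => by
    simpa [dist_eq_norm] using hlip y y').continuous
  have hpair : ∀ y, g y + g (-y) ≤ 2 * R * ‖y‖ := fun y => by
    rw [← le_sub_iff_add_le]
    refine hsup y _ fun x hx => ?_
    rw [le_sub_comm]
    refine hsup _ _ fun x' hx' => ?_
    rw [le_sub_iff_add_le, inner_neg_left, neg_add_eq_sub, ← inner_sub_right, sub_sub_sub_cancel_right]
    refine (real_inner_le_norm _ _).trans ?_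
    nlinarith [hD x hx x' hx', norm_nonneg y]
  set f := fun y : EuclideanSpace ℝ (Fin n) => R * ‖y‖ with hf
  have hI := lintegral_tent hn hc h0 hh
  have hJ := lintegral_tent hn (g := f) (by fun_prop) (fun y => by positivity) fun t ht y => by
    simp [hf, norm_smul, abs_of_pos ht]; ring
  have hneg : ∫⁻ y, ENNReal.ofReal (max (1 - g (-y)) 0) = ∫⁻ y, ENNReal.ofReal (max (1 - g y) 0) :=
    (Measure.measurePreserving_neg volume).lintegral_comp
      (ENNReal.measurable_ofReal.comp ((measurable_const.sub hc.measurable).max measurable_const))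
  have key : 2 * (tentMass n * volume {y | f y < 1}) ≤ 2 * (tentMass n * volume {y | g y < 1}) := by
    rw [← hJ, ← hI, two_mul (∫⁻ y, ENNReal.ofReal (max (1 - g y) 0))]
    conv_rhs => arg 2; rw [← hneg]
    rw [← lintegral_add_right _ (by fun_prop), ← lintegral_const_mul _ (by fun_prop)]
    refine lintegral_mono fun y => ?_
    rw [two_mul, ← ENNReal.ofReal_add (le_max_right _ _) (le_max_right _ _),
      ← ENNReal.ofReal_add (le_max_right _ _) (le_max_right _ _)]
    refine ENNReal.ofReal_le_ofReal ?_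
    rcases le_total (1 - f y) 0 with h | h
    · rw [max_eq_right h, add_zero]; positivity
    · rw [max_eq_left h]
      linarith [le_max_left (1 - g y) 0, le_max_left (1 - g (-y)) 0, hpair y]
  have key' := (ENNReal.mul_le_mul_iff_right (tentMass_ne hn).1 (tentMass_ne hn).2).1
    ((ENNReal.mul_le_mul_iff_right two_ne_zero (by simp)).1 key)
  haveI : Nonempty (Fin n) := ⟨⟨0, Nat.pos_of_ne_zero hn⟩⟩
  have hball : {y : EuclideanSpace ℝ (Fin n) | f y < 1} = ball 0 R⁻¹ := by
    ext y; rw [mem_ball_zero_iff, inv_eq_one_div, lt_div_iff₀' hR]; rfl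
  rw [hball] at key'
  obtain ⟨r, hr, hrK⟩ := Metric.mem_nhds_iff.1 (mem_interior_iff_mem_nhds.1 hz)
  have hfin : volume {y | ∀ x ∈ K, ⟪y, x - z⟫ ≤ 1} ≠ ∞ := by
    refine ne_top_of_le_ne_top (measure_closedBall_lt_top (x := (0 : EuclideanSpace ℝ (Fin n)))
      (r := 2 / r)).ne (measure_mono fun y hy => ?_)
    rw [mem_closedBall_zero_iff, le_div_iff₀ hr]
    rcases eq_or_ne y 0 with rfl | hy0
    · simp
    have hn0 : 0 < ‖y‖ := norm_pos_iff.2 hy0
    have := hy _ (hrK (show z + (r / 2 / ‖y‖) • y ∈ ball z r by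
      rw [mem_ball, dist_eq_norm, add_sub_cancel_left, norm_smul, Real.norm_eq_abs,
        abs_of_pos (by positivity), div_mul_cancel₀ _ hn0.ne']
      linarith))
    rw [add_sub_cancel_left, real_inner_smul_right, real_inner_self_eq_norm_sq] at this
    field_simp at this
    nlinarith
  have hsub : {y | g y < 1} ⊆ {y | ∀ x ∈ K, ⟪y, x - z⟫ ≤ 1} := fun y hy x hx =>
    (hbd y x hx).trans hy.le
  have := ENNReal.toReal_mono hfin (key'.trans (measure_mono hsub))
  rw [Measure.addHaar_ball _ _ (inv_nonneg.2 hR.le), finrank_euclideanSpace_fin, inv_pow,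
    ← Measure.addHaar_closedBall_eq_addHaar_ball] at this
  rw [ENNReal.toReal_mul, ENNReal.toReal_ofReal (by positivity)] at this
  simpa [measureReal_def, div_eq_inv_mul] using this

/-- The volume of the unit ball, as a recursion with a parameter in place of `π`. -/
def ballSeq {α : Type*} [DivisionRing α] (p : α) : ℕ → α
  | 0 => 1
  | 1 => 2
  | n + 2 => 2 * p / (n + 2 : ℕ) * ballSeq p n

theorem ballSeq_pos {p : ℝ} (hp : 0 < p) : ∀ n, 0 < ballSeq p n
  | 0 => by simp [ballSeq]
  | 1 => by simp [ballSeq]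
  | n + 2 => by have := ballSeq_pos hp n; simp only [ballSeq]; positivity

theorem ballSeq_mono {p q : ℝ} (hp : 0 < p) (h : p ≤ q) : ∀ n, ballSeq p n ≤ ballSeq q n
  | 0 => le_of_eq rfl
  | 1 => le_of_eq rfl
  | n + 2 => by
    simp only [ballSeq]
    exact mul_le_mul (by gcongr) (ballSeq_mono hp h n) (ballSeq_pos hp n).le
      (by have := hp.trans_le h; positivity)

theorem ballSeq_eq : ∀ n, ballSeq π n = √π ^ n / Gamma ((n : ℝ) / 2 + 1)
  | 0 => by simp [ballSeq]
  | 1 => by
    rw [Gamma_add_one (by norm_num), Nat.cast_one, Gamma_one_half_eq, ballSeq, pow_one]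
    field_simp
  | n + 2 => by
    have h : (((n + 2 : ℕ) : ℝ) / 2 + 1) = ((n : ℝ) / 2 + 1) + 1 := by push_cast; ring
    rw [h, Gamma_add_one (by positivity), ballSeq, ballSeq_eq n, pow_add, sq_sqrt pi_pos.le]
    have := (Gamma_pos_of_pos (show (0 : ℝ) < (n : ℝ) / 2 + 1 by positivity)).ne'
    push_cast
    field_simp

theorem ball_volume (hn : n ≠ 0) :
    volume.real (closedBall (0 : EuclideanSpace ℝ (Fin n)) 1) = ballSeq π n := by
  haveI : Nonempty (Fin n) := ⟨⟨0, Nat.pos_of_ne_zero hn⟩⟩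
  rw [measureReal_def, EuclideanSpace.volume_closedBall, ballSeq_eq, Fintype.card_fin]
  simp only [ENNReal.ofReal_one, one_pow, one_mul]
  have hG : 0 < Gamma ((n : ℝ) / 2 + 1) := Gamma_pos_of_pos (by positivity)
  exact ENNReal.toReal_ofReal (by positivity)

/-- The margin of the symmetric conjecture at volume radius `2/3`. -/
def margin1 (n : ℕ) : ℝ := (2 / 3) ^ n * ballSeq π n ^ 2 * n ! / 4 ^ n

/-- The margin of the general conjecture at volume radius `12/25`. -/
def margin2 (n : ℕ) : ℝ :=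
  (12 / 25) ^ n * ballSeq π n ^ 2 * (n ! : ℝ) ^ 2 / ((n : ℝ) + 1) ^ (n + 1)

theorem margin1_step {n : ℕ} (hn : 48 ≤ n) : margin1 n ≤ margin1 (n + 2) := by
  have e : margin1 (n + 2) = margin1 n * (π ^ 2 / 9 * ((n + 1) / (n + 2))) := by
    simp only [margin1, ballSeq, Nat.factorial_succ]
    push_cast
    field_simp
    ring
  rw [e]
  refine le_mul_of_one_le_right (by have := ballSeq_pos pi_pos n; unfold margin1; positivity) ?_
  have hp : (3.14 : ℝ) ^ 2 ≤ π ^ 2 := pow_le_pow_left₀ (by norm_num) pi_gt_d2.le 2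
  have hN : (48 : ℝ) ≤ n := by exact_mod_cast hn
  rw [div_mul_div_comm, one_le_div (by positivity)]
  nlinarith [mul_le_mul_of_nonneg_right hp (show (0 : ℝ) ≤ (n : ℝ) + 1 by positivity)]

theorem margin2_step {n : ℕ} (hn : 40 ≤ n) : margin2 n ≤ margin2 (n + 2) := by
  have e : margin2 (n + 2) = margin2 n * ((144 / 625) * (4 * π ^ 2) * ((n + 1) / (n + 3)) ^ 2
      * (((n : ℝ) + 1) / (n + 3)) ^ (n + 1)) := by
    simp only [margin2, ballSeq, Nat.factorial_succ]
    push_cast
    rw [div_pow ((n : ℝ) + 1) _ (n + 1)]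
    field_simp
    ring
  rw [e]
  refine le_mul_of_one_le_right (by have := ballSeq_pos pi_pos n; unfold margin2; positivity) ?_
  have hN : (40 : ℝ) ≤ n := by exact_mod_cast hn
  have h1 : 1 / exp 2 ≤ (((n : ℝ) + 1) / (n + 3)) ^ (n + 1) := by
    have h : (((n : ℝ) + 3) / (n + 1)) ^ (n + 1) ≤ exp 2 := by
      have h := pow_le_pow_left₀ (by positivity) (add_one_le_exp (2 / ((n : ℝ) + 1))) (n + 1)
      rw [← exp_nat_mul, Nat.cast_add, Nat.cast_one, mul_div_cancel₀ _ (by positivity)] at h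
      refine le_of_eq_of_le ?_ h
      congr 1; field_simp; ring
    rw [show ((n : ℝ) + 1) / (n + 3) = 1 / (((n : ℝ) + 3) / (n + 1)) by rw [one_div_div], div_pow,
      one_pow]
    exact one_div_le_one_div_of_le (by positivity) h
  have he : exp 2 ≤ 7.3891 := by
    rw [show (2 : ℝ) = 1 + 1 by norm_num, exp_add]
    nlinarith [exp_one_lt_d9, exp_pos (1 : ℝ)]
  have h2 : 1 / 7.3891 ≤ 1 / exp 2 := one_div_le_one_div_of_le (exp_pos 2) he
  have hp : (3.14 : ℝ) ^ 2 ≤ π ^ 2 := pow_le_pow_left₀ (by norm_num) pi_gt_d2.le 2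
  have hq : (41 / 43 : ℝ) ^ 2 ≤ (((n : ℝ) + 1) / (n + 3)) ^ 2 :=
    pow_le_pow_left₀ (by norm_num) (by rw [div_le_div_iff₀] <;> linarith) 2
  have h3 : (144 / 625 : ℝ) * (4 * 3.14 ^ 2) * (41 / 43) ^ 2 * (1 / 7.3891)
      ≤ (144 / 625) * (4 * π ^ 2) * ((n + 1) / (n + 3)) ^ 2
        * (((n : ℝ) + 1) / (n + 3)) ^ (n + 1) := by
    refine mul_le_mul ?_ (h2.trans h1) (by positivity) (by positivity)
    gcongr
  exact le_trans (by norm_num) h3

theorem margin1_base : 1 < margin1 48 ∧ 1 < margin1 49 := by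
  have h := ballSeq_mono (by norm_num : (0 : ℝ) < 3.1415) pi_gt_d4.le
  have hp : ∀ n, (2 / 3 : ℝ) ^ n * ballSeq (3.1415 : ℝ) n ^ 2 * n ! / 4 ^ n ≤ margin1 n := fun n =>
    by have := ballSeq_pos (show (0 : ℝ) < 3.1415 by norm_num) n; unfold margin1; gcongr; exact h n
  constructor
  · exact lt_of_lt_of_le (by norm_num [ballSeq, Nat.factorial]) (hp 48)
  · exact lt_of_lt_of_le (by norm_num [ballSeq, Nat.factorial]) (hp 49)

theorem margin2_base : 1 < margin2 40 ∧ 1 < margin2 41 := by
  have h := ballSeq_mono (by norm_num : (0 : ℝ) < 3.1415) pi_gt_d4.le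
  have hp : ∀ n, (12 / 25 : ℝ) ^ n * ballSeq (3.1415 : ℝ) n ^ 2 * (n ! : ℝ) ^ 2
      / ((n : ℝ) + 1) ^ (n + 1) ≤ margin2 n := fun n =>
    by have := ballSeq_pos (show (0 : ℝ) < 3.1415 by norm_num) n; unfold margin2; gcongr; exact h n
  constructor
  · exact lt_of_lt_of_le (by norm_num [ballSeq, Nat.factorial]) (hp 40)
  · exact lt_of_lt_of_le (by norm_num [ballSeq, Nat.factorial]) (hp 41)

theorem one_lt_margin1 : ∀ n, 48 ≤ n → 1 < margin1 n := by
  intro n
  induction n using Nat.strong_induction_on with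
  | _ n ih =>
    intro hn
    rcases (by omega : n = 48 ∨ n = 49 ∨ 50 ≤ n) with rfl | rfl | h
    · exact margin1_base.1
    · exact margin1_base.2
    · obtain ⟨m, rfl⟩ := Nat.exists_eq_add_of_le' (by omega : 2 ≤ n)
      exact (ih m (by omega) (by omega)).trans_le (margin1_step (by omega))

theorem one_lt_margin2 : ∀ n, 40 ≤ n → 1 < margin2 n := by
  intro n
  induction n using Nat.strong_induction_on with
  | _ n ih =>
    intro hn
    rcases (by omega : n = 40 ∨ n = 41 ∨ 42 ≤ n) with rfl | rfl | h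
    · exact margin2_base.1
    · exact margin2_base.2
    · obtain ⟨m, rfl⟩ := Nat.exists_eq_add_of_le' (by omega : 2 ≤ n)
      exact (ih m (by omega) (by omega)).trans_le (margin2_step (by omega))

/-- A polar lower bound by half the diameter, and strict Mahler inequalities for bodies of large
volume for their diameter: general bodies for `40 ≤ n`, symmetric ones for `48 ≤ n`. -/
theorem result :
    (∀ (n : ℕ), 0 < n → ∀ (K : Set (EuclideanSpace ℝ (Fin n))), IsCompact K →
      ∀ z ∈ interior K, ∀ R : ℝ, 0 < R → (∀ x ∈ K, ∀ y ∈ K, ‖x - y‖ ≤ 2 * R) →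
        volume.real (closedBall (0 : EuclideanSpace ℝ (Fin n)) 1) / R ^ n
          ≤ volume.real {y | ∀ x ∈ K, ⟪y, x - z⟫ ≤ 1}) ∧
    (∀ (n : ℕ), 40 ≤ n → ∀ (K : Set (EuclideanSpace ℝ (Fin n))), IsCompact K → Convex ℝ K →
      (interior K).Nonempty → ∀ R : ℝ, 0 < R → (∀ x ∈ K, ∀ y ∈ K, ‖x - y‖ ≤ 2 * R) →
        (12 * R / 25) ^ n * volume.real (closedBall (0 : EuclideanSpace ℝ (Fin n)) 1)
          ≤ volume.real K →
        ∃ b : ℝ, ((n : ℝ) + 1) ^ (n + 1) / (n ! : ℝ) ^ 2 < b ∧ ∀ z ∈ interior K,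
          b ≤ volume.real K * volume.real {y | ∀ x ∈ K, ⟪y, x - z⟫ ≤ 1}) ∧
    ∀ (n : ℕ), 48 ≤ n → ∀ (K : Set (EuclideanSpace ℝ (Fin n))), IsCompact K → Convex ℝ K →
      (interior K).Nonempty → (∀ x ∈ K, -x ∈ K) → ∀ R : ℝ, 0 < R → (∀ x ∈ K, ‖x‖ ≤ R) →
        (2 * R / 3) ^ n * volume.real (closedBall (0 : EuclideanSpace ℝ (Fin n)) 1)
          ≤ volume.real K →
        4 ^ n / (n ! : ℝ) < volume.real K * volume.real {y | ∀ x ∈ K, ⟪y, x⟫ ≤ 1} := by
  refine ⟨fun n hn K hK z hz R hR hD => polar_volume hn.ne' hK hz hR hD,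
    fun n hn K hK _ _ R hR hD hV => ?_, fun n hn K hK hc hi hs R hR hD hV => ?_⟩
  · have hn0 : n ≠ 0 := by omega
    refine ⟨(12 / 25) ^ n * ballSeq π n ^ 2, ?_, fun z hz => ?_⟩
    · have := one_lt_margin2 n hn
      rw [margin2, one_lt_div (by positivity)] at this
      rw [div_lt_iff₀ (by positivity)]
      linarith
    · refine le_trans (le_of_eq ?_) (mul_le_mul hV (polar_volume hn0 hK hz hR hD)
        (by positivity) (by positivity))
      rw [ball_volume hn0, show 12 * R / 25 = 12 / 25 * R by ring, mul_pow]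
      field_simp
  · have hn0 : n ≠ 0 := by omega
    obtain ⟨x, hx⟩ := hi
    have h0 : (0 : EuclideanSpace ℝ (Fin n)) ∈ interior K := by
      have := hc.combo_interior_self_mem_interior hx (hs x (interior_subset hx))
        (a := 1 / 2) (b := 1 / 2) (by norm_num) (by norm_num) (by norm_num)
      simpa using this
    have hp := polar_volume hn0 hK h0 hR fun a ha b hb => (norm_sub_le a b).trans (by
      linarith [hD a ha, hD b hb])
    simp only [sub_zero] at hp
    refine lt_of_lt_of_le ?_ (mul_le_mul hV hp (by positivity) (by positivity))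
    have := one_lt_margin1 n hn
    rw [margin1, one_lt_div (by positivity)] at this
    rw [ball_volume hn0, show 2 * R / 3 = 2 / 3 * R by ring, mul_pow, div_lt_iff₀ (by positivity)]
    calc (4 : ℝ) ^ n < (2 / 3) ^ n * ballSeq π n ^ 2 * n ! := this
      _ = _ := by field_simp

end

end Vale.Agent.Results.P248.WideBodies
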